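import Vale.Agent.P011UGM1.Orb
import Vale.Agent.P011UGC5.Act
import Vale.Agent.P011UNC.Nc

/-!
The moves of rank one.
-/

set_option autoImplicit false
set_option linter.all false

namespace Vale.Agent.P011UGM1

open Matrix Vale.Agent.P011L Vale.Agent.P183CH Vale.Agent.P183CH.Chev Vale.Agent.P011U
  Vale.Agent.P011UGA Vale.Agent.P011UGC5

section

variable {K : Type} [Field K] {e : ℤˣ} {d : Kˣ} {σ : K →+* K}

/-- The conjugation which exchanges the two root subgroups. -/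
def tw (d : Kˣ) : S K →* S K where
  toFun M := mk (M.1 1 1) ((d⁻¹ : Kˣ) * M.1 1 0) (d * M.1 0 1) (M.1 0 0) (by
    rw [mul_mul_mul_comm, d.inv_mul]
    linear_combination M.det)
  map_one' := S.ext' (by simp) (by simp) (by simp) (by simp)
  map_mul' M N := by
    refine S.ext' ?_ ?_ ?_ ?_ <;>
      simp only [S.mul, mk00, mk01, mk10, mk11, Units.val_inv_eq_inv_val] <;> field_simp <;> ring

/-- The twisted action on `SL₂`. -/
def bt (e : ℤˣ) (d : Kˣ) (σ : K →+* K) : S K →* S K :=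
  if e = 1 then SpecialLinearGroup.map σ else (tw d).comp (SpecialLinearGroup.map σ)

theorem bt_pos (h : e = 1) (M : S K) (i j : Fin 2) : (bt e d σ M).1 i j = σ (M.1 i j) := by
  rw [bt, if_pos h]
  rfl

theorem bt_neg (h : e = -1) (M : S K) : (bt e d σ M).1 0 0 = σ (M.1 1 1) ∧
    (bt e d σ M).1 0 1 = (d : K)⁻¹ * σ (M.1 1 0) ∧ (bt e d σ M).1 1 0 = d * σ (M.1 0 1) ∧
      (bt e d σ M).1 1 1 = σ (M.1 0 0) := by
  rw [bt, if_neg (by rw [h]; decide), ← Units.val_inv_eq_inv_val]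
  exact ⟨rfl, rfl, rfl, rfl⟩

theorem bt_dg (t : Kˣ) : bt e d σ (dg t) = dg (Units.map (σ : K →* K) t ^ (e : ℤ)) := by
  rcases Int.units_eq_one_or e with h | h <;> refine S.ext' ?_ ?_ ?_ ?_ <;>
    simp [bt_pos, bt_neg, h, dg_eq]

end

variable {k K : Type} [Field k] [Field K] [Algebra k K] {D : Chev} {T : Tw k (D.grp K)}
  {ε : (K ≃ₐ[k] K) →* ℤˣ} {π : (K ≃ₐ[k] K) →* Equiv.Perm (Fin D.R.r)} {d : Fin D.R.r → Kˣ}
  {i : Fin D.R.r}

/-- The homomorphism of a node. -/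
noncomputable abbrev fi (D : Chev) (K : Type) [Field K] (j : Fin D.R.r) : S K →* D.grp K :=
  phi (GG_ok (D := D) (k := K)) (R_ok D) j

/-- The product over a set of orthogonal nodes. -/
noncomputable abbrev FI (K : Type) [Field K] {J : Set (Fin D.R.r)} (o : Og D.R J) :
    (Fin D.R.r → S K) →* D.grp K := PH (GG_ok (D := D) (k := K)) (R_ok D) o

theorem a_fi (h : Opw T ε π d) (σ : K ≃ₐ[k] K) (j : Fin D.R.r) (M : S K) :
    T.a σ (fi D K j M) = fi D K (π σ j) (bt (ε σ) (d (π σ j)) σ M) := by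
  refine DFunLike.congr_fun (hom_ext (f := (T.a σ).toMonoidHom.comp (fi D K j))
    (g := (fi D K (π σ j)).comp (bt (ε σ) (d (π σ j)) σ)) (fun u => ?_) fun u => ?_) M <;>
  rcases Int.units_eq_one_or (ε σ) with e | e
  · refine (congrArg (T.a σ) (phi_u _ _ _ _)).trans ((h.pos σ j u e).1.trans
      ((phi_u _ _ _ _).symm.trans (congrArg _ (S.ext' ?_ ?_ ?_ ?_)))) <;> simp [bt_pos e, eu]
  · refine (congrArg (T.a σ) (phi_u _ _ _ _)).trans ((h.neg σ j u e).1.trans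
      ((phi_l _ _ _ _).symm.trans (congrArg _ (S.ext' ?_ ?_ ?_ ?_)))) <;> simp [bt_neg e, eu, el]
  · refine (congrArg (T.a σ) (phi_l _ _ _ _)).trans ((h.pos σ j u e).2.trans
      ((phi_l _ _ _ _).symm.trans (congrArg _ (S.ext' ?_ ?_ ?_ ?_)))) <;> simp [bt_pos e, el]
  · refine (congrArg (T.a σ) (phi_l _ _ _ _)).trans ((h.neg σ j u e).2.trans
      ((phi_u _ _ _ _).symm.trans (congrArg _ (S.ext' ?_ ?_ ?_ ?_)))) <;> simp [bt_neg e, eu, el]

theorem bt_dg' (σ : K ≃ₐ[k] K) (e : ℤˣ) (c t : Kˣ) :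
    bt e c σ (dg t) = dg (Units.map (σ : K →* K) t ^ (e : ℤ)) := bt_dg t

theorem orb_iff (σ : K ≃ₐ[k] K) (j : Fin D.R.r) : π σ j ∈ orb π i ↔ j ∈ orb π i :=
  ⟨fun ⟨τ, e⟩ => ⟨σ⁻¹ * τ, by simp [e]⟩, fun ⟨τ, e⟩ => ⟨σ * τ, by simp [e]⟩⟩

theorem orb_self : i ∈ orb π i := ⟨1, by simp⟩

theorem og (o : Ort D.R π) (i : Fin D.R.r) : Og D.R (orb π i) := by
  rintro _ ⟨σ, rfl⟩ _ ⟨τ, rfl⟩ ne
  simpa using o (σ * τ⁻¹) (π τ i) (by simpa using ne)

theorem a_FI (h : Opw T ε π d) (o : Og D.R (orb π i)) (σ : K ≃ₐ[k] K) (M : Fin D.R.r → S K) :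
    T.a σ (FI K o M) = FI K o fun j => bt (ε σ) (d j) σ (M ((π σ).symm j)) :=
  PH_map _ _ o (T.a σ).toMonoidHom (π σ) (fun j => bt (ε σ) (d j) σ) (orb_iff σ)
    (fun j _ => a_fi h σ j) M

/-- The equation of a frame in coordinates. -/
theorem coord (hD : SC D) (h : Opw T ε π d) (o : Og D.R (orb π i)) {M : Fin D.R.r → S K}
    {s c : Fin D.R.r → Kˣ} {σ : K ≃ₐ[k] K} (hs : ∀ j ∈ orb π i, s j = 1)
    (e : T.a σ (FI K o M * hT D K s) = FI K o M * hT D K s * hT D K c) :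
    (∀ j ∈ orb π i, bt (ε σ) (d (π σ j)) σ (M j) = M (π σ j) * dg (c (π σ j))) ∧
      ∀ m ∉ orb π i, Units.map (σ : K →* K) (s m) ^ (ε σ : ℤ) = s (π σ m) * c (π σ m) := by
  rw [map_mul, a_FI h, a_hT h, mul_assoc, ← map_mul, ← eq_mul_inv_iff_mul_eq, mul_assoc, ← map_inv,
    ← map_mul, ← inv_mul_eq_iff_eq_mul, ← map_inv, ← map_mul] at e
  obtain ⟨a, b⟩ := PH_uniq _ _ o hD.hT_inj e
  refine ⟨fun j m => ?_, fun j m => ?_⟩
  · simpa [hs j m, hs _ ((orb_iff σ j).2 m), inv_mul_eq_iff_eq_mul] using a _ ((orb_iff σ j).2 m)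
  · simpa using (mul_inv_eq_one.1 (b _ (mt (orb_iff σ j).1 m))).symm

theorem mvn : MVN := by
  intro k K _ _ _ _ _ D hD T ε π d h o i g hg t f
  obtain ⟨M, s, hs, rfl⟩ := GJ_coord GG_ok (R_ok D) (og o i) hg
  have p := fun σ e => coord hD h (og o i) (c := 1) hs
    ((f.1 σ e).trans (by rw [map_one, mul_one]))
  have q := fun σ e => coord hD h (og o i) hs (f.2 σ e)
  refine ⟨fun j m θ e r => ?_, s⁻¹, fun σ e j => ?_, fun m a θ e => ?_⟩
  · have u : ∀ a b, Sp ε π j ((M j).1 a b) := fun a b σ e r => by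
      simpa [bt_pos e, r] using congrArg (fun N : S K => N.1 a b) ((p σ e).1 j m)
    have v := (q θ e).1 j m
    have v1 := congrArg (fun N : S K => N.1 0 0) v
    have v2 := congrArg (fun N : S K => N.1 1 0) v
    simp [bt_neg e, r, S.mul, dg_eq] at v1 v2
    refine ⟨_, _, u 1 1, u 0 1, ?_⟩
    linear_combination -(t j : K) * (M j).det - (M j).1 1 1 * v1 + (M j).1 0 1 * v2
  · by_cases a : j ∈ orb π i
    · simp [hs j a, hs _ ((orb_iff σ j).2 a)]
    · simpa [e, eq_comm] using congrArg Units.val ((p σ e).2 j a)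
  · have := congrArg Units.val ((q θ e).2 m a)
    simp [e] at this
    simp [this]

/-- Spreading of an element over the orbit. -/
theorem spread (hD : SC D) (h : Opw T ε π d) (o : Og D.R (orb π i))
    (c : (K ≃ₐ[k] K) → Fin D.R.r → Kˣ) (c0 : ∀ σ, ∀ m ∉ orb π i, c σ m = 1)
    (hc : ∀ σ τ j, c (σ * τ) (π σ j) = c σ (π σ j) * Units.map (σ : K →* K) (c τ j) ^ (ε σ : ℤ))
    (g : S K) (hg : ∀ ρ, π ρ i = i → bt (ε ρ) (d i) ρ g = g * dg (c ρ i)) :
    ∃ M, M i = g ∧ ∀ σ, T.a σ (FI K o M) = FI K o M * hT D K (c σ) := by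
  have B : ∀ (σ τ : K ≃ₐ[k] K) N, bt (ε (σ * τ)) (d (π σ (π τ i))) (σ * τ : K ≃ₐ[k] K) N =
      bt (ε σ) (d (π σ (π τ i))) σ (bt (ε τ) (d (π τ i)) τ N) := fun σ τ N =>
    phi_inj GG_ok (R_ok D) hD.hT_inj (π σ (π τ i)) (by
      have := a_fi h (σ * τ) i N
      rw [map_mul T.a, MulAut.mul_apply, a_fi h, a_fi h, map_mul π, Equiv.Perm.mul_apply] at this
      exact this.symm)
  choose! τ hτ using fun j (m : j ∈ orb π i) => m
  let M : Fin D.R.r → S K := fun j => bt (ε (τ j)) (d j) (τ j) g * (dg (c (τ j) j))⁻¹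
  have W : ∀ σ, M (π σ i) = bt (ε σ) (d (π σ i)) σ g * (dg (c σ (π σ i)))⁻¹ := fun σ => by
    obtain ⟨ρ, e⟩ : ∃ ρ, τ (π σ i) = σ * ρ := ⟨σ⁻¹ * τ (π σ i), by group⟩
    have r : π ρ i = i := (π σ).injective (by
      rw [← Equiv.Perm.mul_apply, ← map_mul, ← e, hτ _ ⟨σ, rfl⟩])
    have := B σ ρ g
    rw [r, hg ρ r, map_mul (bt _ _ _), bt_dg'] at this
    simp only [M, e]
    rw [this, hc, mul_comm (c σ _), mul_comm _ (c σ _), map_mul dg]
    simp [mul_assoc]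
  refine ⟨M, ?_, fun σ => ?_⟩
  · have := W 1
    rw [show π 1 i = i by simp, hg 1 (by simp), mul_inv_cancel_right] at this
    exact this
  rw [a_FI h, ← PH_dg GG_ok (R_ok D) o (c0 σ), ← map_mul]
  refine PH_congr _ _ o fun j m => ?_
  obtain ⟨j, rfl⟩ := (π σ).surjective j
  obtain ⟨ρ, rfl⟩ := (orb_iff σ j).1 m
  have := W (σ * ρ)
  rw [map_mul π, Equiv.Perm.mul_apply, B, hc] at this
  rw [Equiv.symm_apply_apply, W, Pi.mul_apply, this, map_mul (bt _ _ _), map_inv, bt_dg', map_mul dg]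
  simp [mul_assoc]

/-- Conjugate elements for the stabiliser of the node `i`. -/
def Cs (ε : (K ≃ₐ[k] K) →* ℤˣ) (π : (K ≃ₐ[k] K) →* Equiv.Perm (Fin D.R.r)) (i : Fin D.R.r)
    (a a' : K) : Prop :=
  ∀ ρ, π ρ i = i → (ε ρ = 1 → ρ a = a ∧ ρ a' = a') ∧ (ε ρ = -1 → ρ a = a' ∧ ρ a' = a)

theorem cs_of {θ : K ≃ₐ[k] K} (e : ε θ = -1) (r : π θ i = i) {a : K} (h : Sp ε π i a) :
    Cs ε π i a (θ a) := fun ρ s => by
  have r' : (π θ).symm i = i := by rw [Equiv.symm_apply_eq, r]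
  refine ⟨fun f => ⟨h ρ f s, ?_⟩, fun f => ⟨?_, h (ρ * θ) (by simp [e, f]) (by simp [r, s])⟩⟩
  · simpa using congrArg θ (h (θ⁻¹ * ρ * θ) (by simp [e, f]) (by simp [r, s, r']))
  · simpa using congrArg θ (h (θ⁻¹ * ρ) (by simp [e, f]) (by simp [s, r']))

theorem frame (h : Opw T ε π d) {a a' b b' : K} {t : Kˣ} (ha : Cs ε π i a a') (hb : Cs ε π i b b')
    (ht : ∀ ρ, π ρ i = i → ρ (t : K) = t) (e : (t : K) = a * a' - d i * (b * b')) :
    ∃ g : S K, g.1 0 1 = b ∧ ∀ ρ, π ρ i = i →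
      bt (ε ρ) (d i) ρ g = g * dg (if ε ρ = 1 then 1 else t) := by
  refine ⟨mk (a' / t) b (d i * b' / t) a (by field_simp; linear_combination -e), rfl, fun ρ r => ?_⟩
  have hd : ρ (d i) = d i := by simpa [r] using (h.eqt ρ trivial i).symm
  rcases Int.units_eq_one_or (ε ρ) with f | f <;> refine S.ext' ?_ ?_ ?_ ?_ <;>
    simp [bt_pos, bt_neg, f, S.mul, dg_eq, hd, ht ρ r, (ha ρ r).1, (ha ρ r).2, (hb ρ r).1,
      (hb ρ r).2, div_eq_mul_inv, mul_assoc]

theorem mvs : MVS := by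
  intro k K _ _ _ _ _ D hD T ε π d h o _ i t ht t0 v
  obtain ⟨g, hg⟩ : ∃ g : S K, ∀ ρ, π ρ i = i →
      bt (ε ρ) (d i) ρ g = g * dg (if ε ρ = 1 then 1 else t i) := by
    by_cases c : ∃ θ, ε θ = -1 ∧ π θ i = i
    · obtain ⟨θ, e, r⟩ := c
      obtain ⟨a, b, ha, hb, f⟩ := v θ e r
      exact (frame h (cs_of e r ha) (cs_of e r hb)
        (fun ρ s => by simpa [s] using (ht ρ trivial i).symm) f).imp fun _ => And.right
    · exact ⟨1, fun ρ s => by
        simp [(Int.units_eq_one_or (ε ρ)).resolve_right fun e => c ⟨ρ, e, s⟩]⟩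
  obtain ⟨M, -, e⟩ := spread hD h (og o i) (fun σ j => if ε σ = 1 then 1 else t j)
    (fun σ m a => by simp [t0 m a]) (fun σ τ j => Units.ext (by
      rcases Int.units_eq_one_or (ε σ) with a | a <;> rcases Int.units_eq_one_or (ε τ) with b | b <;>
        simp [a, b, ht σ trivial])) g hg
  exact ⟨_, PH_LJ _ _ _ M, fun σ a => by simpa [a, ← Pi.one_def] using e σ,
    fun σ a => by simpa [a] using e σ⟩

open Polynomial in
theorem ex_ne [Infinite k] {p : K[X]} (hp : p ≠ 0) : ∃ c : k, p.eval (algebraMap k K c) ≠ 0 := by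
  by_contra! f
  exact hp (p.eq_zero_of_infinite_isRoot ((Set.infinite_range_of_injective
    (algebraMap k K).injective).mono (by rintro _ ⟨c, rfl⟩; exact f c)))

open Polynomial in
/-- An element of norm one and of infinite order. -/
theorem ex_z [IsGalois k K] (hk : Glob k) {u v : K} (g : P011UK.Cj ε u v) (ne : u ≠ v) :
    ∃ z : Kˣ, (∀ σ : K ≃ₐ[k] K, Units.map (σ : K →* K) z ^ (ε σ : ℤ) = z) ∧
      ∀ m : ℕ, 0 < m → z ^ m ≠ 1 := by
  have := Glob.inf hk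
  obtain ⟨A, hA, H⟩ := P011UNC.coef_fin hk 2
  obtain ⟨c, hc⟩ := ex_ne (k := k) (p := (X + C u) * (X + C v) * ∏ s ∈ hA.toFinset,
      ((X + C u) ^ 2 + (X + C v) ^ 2 + C (algebraMap k K s) * ((X + C u) * (X + C v))))
    (mul_ne_zero (mul_ne_zero (X_add_C_ne_zero _) (X_add_C_ne_zero _))
      (Finset.prod_ne_zero_iff.2 fun s _ e => ne (by
        have := congrArg (eval (-u)) e
        simp at this
        linear_combination -this)))
  simp only [eval_mul, eval_prod, eval_add, eval_pow, eval_X, eval_C, mul_ne_zero_iff,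
    Finset.prod_ne_zero_iff] at hc
  obtain ⟨⟨x0, y0⟩, hc⟩ := hc
  have q := (P011UK.Cj.alg c).add g
  generalize algebraMap k K c + u = x at *
  generalize algebraMap k K c + v = y at *
  refine ⟨Units.mk0 _ (div_ne_zero x0 y0), fun σ => Units.ext ?_, fun m m0 e => ?_⟩
  · rcases Int.units_eq_one_or (ε σ) with a | a <;> simp [a, (q σ).1, (q σ).2]
  obtain ⟨s, hs⟩ := (InfiniteGalois.mem_range_algebraMap_iff_fixed _).2
    (add_comm (y / x) _ ▸ (q.div q.symm).add (q.symm.div q) :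
      P011UK.Cj ε (x / y + y / x) (x / y + y / x)).fix
  have e1 : (x / y) ^ m = 1 := congrArg Units.val e
  have e2 : (y / x) ^ m = 1 := by rw [← inv_div, inv_pow, e1, inv_one]
  have := H (X ^ 2 + C (-s) * X + C 1) m 2 (by monicity!) (by compute_degree) m0 (by
    rw [← map_dvd_map' (algebraMap k K), P011UNC.cyc_map, pow_two (_ - _),
      show Polynomial.map (algebraMap k K) (X ^ 2 + C (-s) * X + C 1) =
        (X - C (x / y)) * (X - C (y / x)) by
        have : C (x / y) * C (y / x) = (1 : K[X]) := by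
          rw [← C_mul, div_mul_div_cancel₀ y0, div_self x0, C_1]
        simp [hs]
        linear_combination -this]
    exact mul_dvd_mul (dvd_iff_isRoot.2 (by simp [e1])) (dvd_iff_isRoot.2 (by simp [e2]))) 1
  refine hc (-s) (by simpa [coeff_one] using this) ?_
  rw [map_neg, hs]
  field_simp
  ring

theorem nag : NAG := by
  intro k K _ _ _ _ D hk hD T ε π d h o i
  have := Glob.inf hk
  obtain ⟨u, v, g, ne⟩ : ∃ u v : K, P011UK.Cj ε u v ∧ u ≠ v := by
    by_cases c : ∃ τ, ε τ = -1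
    · obtain ⟨F, _, hF⟩ := h.near
      exact P011UK.ex_gen c F fun σ s =>
        (hF σ ((IntermediateField.mem_fixingSubgroup_iff _ _).1 s)).1
    · exact ⟨1, 0, fun σ => ⟨by simp, fun e => absurd ⟨σ, e⟩ c⟩, one_ne_zero⟩
  obtain ⟨z, hz, z1⟩ := ex_z hk g ne
  obtain ⟨b, b0, hb⟩ : ∃ b : S K, b.1 0 1 ≠ 0 ∧ ∀ ρ, π ρ i = i → bt (ε ρ) (d i) ρ b = b := by
    obtain ⟨r, r', hr, r0⟩ : ∃ r r' : K, P011UK.Cj ε r r' ∧ r + r' ≠ 0 := by
      by_contra! f
      exact ne (by linear_combination f u v g - v * f 1 1 .one)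
    obtain ⟨c, hc⟩ := ex_ne (k := k)
      (p := Polynomial.X * (Polynomial.X ^ 2 * Polynomial.C (r * r') - Polynomial.C (d i : K)))
      (mul_ne_zero Polynomial.X_ne_zero fun e => by
        simpa using congrArg (Polynomial.eval 0) e)
    simp only [Polynomial.eval_mul, Polynomial.eval_sub, Polynomial.eval_pow, Polynomial.eval_X,
      Polynomial.eval_C, mul_ne_zero_iff] at hc
    have q := (P011UK.Cj.alg c).mul hr
    have x0 : algebraMap k K c * r + algebraMap k K c * r' ≠ 0 :=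
      mul_add (algebraMap k K c) r r' ▸ mul_ne_zero hc.1 r0
    have x1 : algebraMap k K c * r * (algebraMap k K c * r') - d i ≠ 0 := fun e =>
      hc.2 (by linear_combination e)
    generalize algebraMap k K c * r = x at *
    generalize algebraMap k K c * r' = y at *
    have hd : ∀ ρ, π ρ i = i → ρ (d i) = d i := fun ρ r => by
      simpa [r] using (h.eqt ρ trivial i).symm
    obtain ⟨b, e, hb⟩ := frame h (a := (x * x + d i) / (x * y - d i))
      (a' := (y * y + d i) / (x * y - d i)) (b := (x + y) / (x * y - d i))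
      (b' := (x + y) / (x * y - d i)) (t := 1)
      (fun ρ r => ⟨fun f => by simp [(q ρ).1 f, hd ρ r], fun f => by
        simp [(q ρ).2 f, hd ρ r, mul_comm]⟩)
      (fun ρ r => ⟨fun f => by simp [(q ρ).1 f, hd ρ r], fun f => by
        simp [(q ρ).2 f, hd ρ r, mul_comm, add_comm]⟩) (fun ρ _ => by simp)
      (by field_simp; simp; ring)
    exact ⟨b, e ▸ div_ne_zero x0 x1, by simpa using hb⟩
  have sp := fun g hg => spread hD h (og o i) 1 (by simp) (by simp) g hg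
  obtain ⟨A, a1, a2⟩ := sp (dg z) fun ρ _ => by simpa [bt_dg'] using congrArg dg (hz ρ)
  obtain ⟨B, b1, b2⟩ := sp b (by simpa using hb)
  refine ⟨_, ⟨fun σ => by simpa using a2 σ, PH_LJ _ _ _ A⟩, _,
    ⟨fun σ => by simpa using b2 σ, PH_LJ _ _ _ B⟩, fun m m0 e => z1 (m + m) (by omega) ?_⟩
  have f := (PH_uniq GG_ok (R_ok D) (og o i) hD.hT_inj (M := A ^ m * B * (B * A ^ m)⁻¹) (s := 1)
    (by rw [map_mul, map_inv, map_mul, map_mul, map_pow, e.eq, mul_inv_cancel, map_one])).1 i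
    orb_self
  simp only [Pi.mul_apply, Pi.inv_apply, Pi.pow_apply, Pi.one_apply, a1, b1, map_one,
    mul_inv_eq_one, ← map_pow] at f
  have f1 := congrArg (fun N : S K => N.1 0 1) f
  simp only [S.mul, dg_eq, mk00, mk01, mk11, zero_mul, mul_zero, add_zero, zero_add] at f1
  rw [pow_add, mul_eq_one_iff_eq_inv]
  exact Units.ext (mul_right_cancel₀ b0 (f1.trans (mul_comm _ _)))

end Vale.Agent.P011UGM1
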