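import Vale.Agent.P011UGM1.Phi
import Vale.Agent.P011UK.Opi
import Vale.Agent.P011US.Sub
import Vale.Agent.P011UP.Lev

/-!
Coordinates on the Levi subgroup of a set of orthogonal nodes.
-/

set_option autoImplicit false
set_option linter.all false

namespace Vale.Agent.P011UGM1

open Matrix Vale.Agent.P183CH Vale.Agent.P011U Vale.Agent.P011UK

variable {R : RS} {K G : Type} [Field K] [Group G] {Γ : RG R K G} (hΓ : Γ.Ok) (hR : R.Ok)
  {i j : Fin R.r} {J J' : Set (Fin R.r)}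

/-- The nodes in `J` are orthogonal. -/
def Og (R : RS) (J : Set (Fin R.r)) : Prop := ∀ i ∈ J, ∀ j ∈ J, i ≠ j → R.A i j = 0

/-- The homomorphism of the node `i`. -/
noncomputable def phi (i : Fin R.r) : S K →* G := (ex_phi (s2 hΓ hR i)).choose

theorem phi_u (i : Fin R.r) (u : K) : phi hΓ hR i (eu u) = Γ.x (R.α i) u :=
  (ex_phi (s2 hΓ hR i)).choose_spec.1 u

theorem phi_l (i : Fin R.r) (u : K) : phi hΓ hR i (el u) = Γ.x (-R.α i) u :=
  (ex_phi (s2 hΓ hR i)).choose_spec.2 u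

theorem phi_dg (i : Fin R.r) (t : Kˣ) : phi hΓ hR i (dg t) = Γ.h i t :=
  phi_h (s2 hΓ hR i) (phi_u hΓ hR i) (phi_l hΓ hR i) t

theorem phi_ww (i : Fin R.r) : phi hΓ hR i ww = Γ.n i :=
  phi_n (s2 hΓ hR i) (phi_u hΓ hR i) (phi_l hΓ hR i)

theorem phi_mem (h : i ∈ J) (M : S K) : phi hΓ hR i M ∈ LJ Γ J :=
  gen (H := (LJ Γ J).comap (phi hΓ hR i))
    (fun u => (phi_u hΓ hR i u).symm ▸ RG.x_mem (hR.simple i) (RS.In_α h) u :
      ∀ u, phi hΓ hR i (eu u) ∈ LJ Γ J)
    (fun u => (phi_l hΓ hR i u).symm ▸ RG.x_mem (hR.neg_mem (hR.simple i)) (RS.In_α h).neg u :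
      ∀ u, phi hΓ hR i (el u) ∈ LJ Γ J) M

theorem comm_of {f g : S K →* G} (a : ∀ t u, Commute (f (eu t)) (g (eu u)))
    (b : ∀ t u, Commute (f (el t)) (g (eu u))) (c : ∀ t u, Commute (f (eu t)) (g (el u)))
    (d : ∀ t u, Commute (f (el t)) (g (el u))) (M N : S K) : Commute (f M) (g N) := by
  have e : ∀ {f : S K →* G} {x : G}, (∀ t, Commute (f (eu t)) x) → (∀ t, Commute (f (el t)) x) →
      ∀ M, Commute (f M) x := fun {f x} a b M => Subgroup.mem_centralizer_singleton_iff.1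
    (gen (H := (Subgroup.centralizer {x}).comap f)
      (fun t => Subgroup.mem_centralizer_singleton_iff.2 (a t))
      (fun t => Subgroup.mem_centralizer_singleton_iff.2 (b t)) M)
  exact (e (fun u => (e (a · u) (b · u) M).symm) (fun u => (e (c · u) (d · u) M).symm) N).symm

theorem phi_comm (ne : i ≠ j) (h : R.A i j = 0) (M N : S K) :
    Commute (phi hΓ hR i M) (phi hΓ hR j N) := by
  have h' := hR.A_zero_comm.1 h
  have e1 : R.sE i (R.α j) = R.α j := by simp [hR.sE_eq, RS.pr_α, h']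
  have e2 : R.sE j (R.α i) = R.α i := by simp [hR.sE_eq, RS.pr_α, h]
  have a : ∀ t u, Commute (Γ.x (R.α i) t) (Γ.x (R.α j) u) := fun t u => by
    have c := hΓ.comm _ (hR.simple i) _ (hR.simple j) (RS.α_nonneg i) (RS.α_nonneg j) t u
    have d := RG.X_le (K := ⊥) (fun γ q m _ => by
      obtain ⟨a, b, a0, b0, e⟩ := q
      have s := (hR.sign _ (hR.map_mem (RS.sE_mem_W i) m)).2
      rw [e, map_add, map_nsmul, map_nsmul, hR.sE_α, e1] at s
      rcases s with s | s
      · exact absurd (s i) (by simp [RS.α_self, RS.α_ne ne, a0.ne'])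
      · exact absurd (s j) (by simp [RS.α_self, RS.α_ne ne.symm, b0.ne'])) c
    exact commutatorElement_eq_one_iff_commute.1 (Subgroup.mem_bot.1 d)
  have b := comm_conj hΓ hR (RG.rep_n i) (hR.simple i) (hR.simple j) a
  have c := comm_conj hΓ hR (RG.rep_n j) (hR.simple i) (hR.simple j) a
  rw [hR.sE_α, e1] at b
  have d := comm_conj hΓ hR (RG.rep_n j) (hR.neg_mem (hR.simple i)) (hR.simple j) b
  rw [hR.sE_α, e2] at c
  rw [hR.sE_α, map_neg, e2] at d
  refine comm_of ?_ ?_ ?_ ?_ M N <;> simp only [phi_u, phi_l] <;> assumption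

/-- The intersection with a Levi subgroup which does not contain the node. -/
theorem dg_of {M : S K} (h : phi hΓ hR j M ∈ Γ.GJ J) (hj : j ∉ J) : ∃ x, M = dg x := by
  obtain ⟨a, ha, n, hn, b, hb, e⟩ := hΓ.bruhat0 hR h
  obtain ⟨w, hw, r⟩ := RG.exists_rep hn
  have m : ∀ u, Γ.x (R.α j) u ∈ Γ.U := RG.x_mem (hR.simple j) (RS.α_nonneg j)
  obtain ⟨u, t, rfl⟩ | ⟨u, t, v, rfl⟩ := bruS M
  · rw [map_mul, phi_u, phi_dg] at e
    have e1 : Γ.h j t = n := hΓ.cell_eq hR r.mem_N (RG.T_le_N (RG.h_mem j t))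
      (mul_mem (inv_mem (m u)) (RG.UJ_le J ha)) (RG.UJ_le J hb) (by
        rw [mul_assoc, mul_assoc, ← mul_assoc a, ← e, inv_mul_cancel_left])
    have e2 : Γ.x (R.α j) u ∈ Γ.UJ J := by
      rw [eq_mul_inv_of_mul_eq e, ← e1, mul_assoc, mul_assoc, ← mul_assoc (Γ.h j t)]
      exact mul_mem ha (hΓ.nm_T_X _ _ (RG.h_mem j t) _ hb)
    by_cases u0 : u = 0
    · exact ⟨t, by rw [u0, s2S.p0, one_mul]⟩
    · exact absurd (RS.mem_of_In ((hΓ.x_mem_iff hR (RS.cl_PJ J) (hR.α_pos j) u0).1 e2).2.2) hj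
  · simp only [map_mul, phi_u, phi_dg, phi_ww] at e
    have r' := (RG.rep_n (Γ := Γ) j).T_mul (RG.h_mem j t)
    have e1 : Γ.h j t * Γ.n j = n := hΓ.cell_eq hR r.mem_N r'.mem_N
      (mul_mem (inv_mem (m u)) (RG.UJ_le J ha)) (mul_mem (RG.UJ_le J hb) (inv_mem (m v))) (by
        rw [← mul_assoc, mul_assoc _ a, mul_assoc _ (a * n), ← e]
        group)
    have e2 := hR.sub_In hw (R.α j) j hj
    rw [← hΓ.rep_unique hR (e1 ▸ r') r, hR.sE_α] at e2
    simp [RS.α_self] at e2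

open Classical in
/-- The homomorphism of the node `j`, trivial outside of `J`. -/
noncomputable def ph (J : Set (Fin R.r)) (j : Fin R.r) : S K →* G :=
  if j ∈ J then phi hΓ hR j else 1

theorem ph_in (h : j ∈ J) : ph hΓ hR J j = phi hΓ hR j := if_pos h

theorem ph_out (h : j ∉ J) : ph hΓ hR J j = 1 := if_neg h

theorem ph_comm (o : Og R J) :
    Pairwise fun i j => ∀ M N, Commute (ph hΓ hR J i M) (ph hΓ hR J j N) := fun i j ne M N => by
  by_cases a : i ∈ J
  · by_cases b : j ∈ J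
    · rw [ph_in hΓ hR a, ph_in hΓ hR b]
      exact phi_comm hΓ hR ne (o i a j b ne) M N
    · rw [ph_out hΓ hR b]
      exact Commute.one_right _
  · rw [ph_out hΓ hR a]
    exact Commute.one_left _

/-- The product of the homomorphisms of the nodes in `J`. -/
noncomputable def PH (o : Og R J) : (Fin R.r → S K) →* G :=
  MonoidHom.noncommPiCoprod (ph hΓ hR J) (ph_comm hΓ hR o)

variable (o : Og R J)

theorem PH_in (h : j ∈ J) (M : S K) : PH hΓ hR o (Pi.mulSingle j M) = phi hΓ hR j M := by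
  rw [PH, MonoidHom.noncommPiCoprod_mulSingle, ph_in hΓ hR h]

theorem PH_out (h : j ∉ J) (M : S K) : PH hΓ hR o (Pi.mulSingle j M) = 1 := by
  rw [PH, MonoidHom.noncommPiCoprod_mulSingle, ph_out hΓ hR h, MonoidHom.one_apply]

theorem PH_mem {H : Subgroup G} {M : Fin R.r → S K} (h : ∀ j ∈ J, phi hΓ hR j (M j) ∈ H) :
    PH hΓ hR o M ∈ H :=
  H.noncommProd_mem (t := Finset.univ) (f := fun j => ph hΓ hR J j (M j))
    (fun _ _ _ _ e => ph_comm hΓ hR o e _ _) fun j _ => by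
      by_cases a : j ∈ J
      · rw [ph_in hΓ hR a]
        exact h j a
      · rw [ph_out hΓ hR a]
        exact one_mem _

theorem PH_LJ (M : Fin R.r → S K) : PH hΓ hR o M ∈ LJ Γ J :=
  PH_mem hΓ hR o fun _ h => phi_mem hΓ hR h _

theorem PH_congr {M N : Fin R.r → S K} (h : ∀ j ∈ J, M j = N j) :
    PH hΓ hR o M = PH hΓ hR o N := by
  rw [← mul_inv_eq_one, ← map_inv, ← map_mul]
  exact Subgroup.mem_bot.1 (PH_mem hΓ hR o fun j a => by simp [h j a])

theorem PH_surj {g : G} (h : g ∈ LJ Γ J) : ∃ M, PH hΓ hR o M = g := by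
  rw [LJ_eq hR hΓ] at h
  refine (Subgroup.closure_le (PH hΓ hR o).range).2 ?_ h
  rintro _ ⟨j, a, t, rfl | rfl⟩
  · exact ⟨_, (PH_in hΓ hR o a _).trans (phi_u hΓ hR j t)⟩
  · exact ⟨_, (PH_in hΓ hR o a _).trans (phi_l hΓ hR j t)⟩

theorem PH_dg {s : Fin R.r → Kˣ} (h : ∀ m ∉ J, s m = 1) :
    PH hΓ hR o (fun j => dg (s j)) = hΓ.hT s := by
  classical
  let ρ : (Fin R.r → Kˣ) →* Fin R.r → Kˣ :=
    Pi.monoidHom fun j => if j ∈ J then Pi.evalMonoidHom _ j else 1
  have r : ∀ s j, ρ s j = if j ∈ J then s j else 1 := fun s j => by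
    show (if j ∈ J then Pi.evalMonoidHom (fun _ => Kˣ) j else 1) s = _
    split_ifs <;> rfl
  have : (PH hΓ hR o).comp (MonoidHom.compLeft dg _) = hΓ.hT.comp ρ :=
    MonoidHom.pi_ext fun j x => by
      have e : MonoidHom.compLeft dg _ (Pi.mulSingle j x) = Pi.mulSingle j (dg x : S K) :=
        funext fun i => Pi.apply_mulSingle (fun _ => (dg : Kˣ → S K)) (fun _ => map_one _) j x i
      rw [MonoidHom.comp_apply, MonoidHom.comp_apply, e]
      by_cases a : j ∈ J
      · rw [PH_in hΓ hR o a, phi_dg, ← hΓ.hT_single]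
        refine congrArg _ (funext fun i => ?_)
        rw [r]
        split_ifs with b
        exacts [rfl, Pi.mulSingle_eq_of_ne (fun c : i = j => b (c ▸ a)) _]
      · rw [PH_out hΓ hR o a, ← map_one hΓ.hT]
        refine congrArg _ (funext fun i => ?_)
        rw [r]
        split_ifs with b
        exacts [by rw [Pi.mulSingle_eq_of_ne fun c : i = j => a (c ▸ b), Pi.one_apply], rfl]
  refine (DFunLike.congr_fun this s).trans (congrArg hΓ.hT (funext fun i => ?_ : ρ s = s))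
  rw [r]
  split_ifs with b
  exacts [rfl, (h i b).symm]

/-- Uniqueness of the coordinates. -/
theorem PH_uniq (inj : Function.Injective hΓ.hT) {M : Fin R.r → S K} {s : Fin R.r → Kˣ}
    (h : PH hΓ hR o M = hΓ.hT s) : (∀ j ∈ J, M j = dg (s j)) ∧ ∀ m ∉ J, s m = 1 := by
  classical
  have a : ∀ j, ∃ x, (j ∈ J → M j = dg x) ∧ (j ∉ J → x = 1) := fun j => by
    by_cases b : j ∈ J
    · have c : PH hΓ hR o ((Pi.mulSingle j (M j))⁻¹ * M)⁻¹ ∈ LJ Γ {i | i ≠ j} :=
        PH_mem hΓ hR o fun i _ => by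
          by_cases e : i = j
          · simp [e]
          · exact phi_mem hΓ hR e _
      obtain ⟨x, e⟩ := dg_of hΓ hR (M := M j) (J := {i | i ≠ j}) (by
        rw [_root_.mul_inv_rev, inv_inv, map_mul, map_inv, h, PH_in hΓ hR o b] at c
        exact (Subgroup.mul_mem_cancel_left _ (inv_mem (Subgroup.mem_sup_right (hΓ.hT_mem s)))).1
          (Subgroup.mem_sup_left c)) fun c => c rfl
      exact ⟨x, fun _ => e, fun c => absurd b c⟩
    · exact ⟨1, fun c => absurd c b, fun _ => rfl⟩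
  choose x a b using a
  obtain rfl : x = s := inj ((PH_dg hΓ hR o b).symm.trans ((PH_congr hΓ hR o a).symm.trans h))
  exact ⟨a, b⟩

theorem phi_inj (inj : Function.Injective hΓ.hT) (j : Fin R.r) :
    Function.Injective (phi hΓ hR j) := (injective_iff_map_eq_one _).2 fun M h => by
  have o : Og R {j} := fun a b c d e => absurd (b.trans d.symm) e
  simpa using (PH_uniq hΓ hR o inj (s := 1) ((PH_in hΓ hR o rfl M).trans
    (h.trans (map_one _).symm))).1 j rfl

/-- Every element of the Levi subgroup has coordinates. -/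
theorem GJ_coord {g : G} (h : g ∈ Γ.GJ J) :
    ∃ M s, (∀ j ∈ J, s j = 1) ∧ g = PH hΓ hR o M * hΓ.hT s := by
  classical
  obtain ⟨l, hl, t, ht, rfl⟩ := P011UP.GJ_split hΓ h
  obtain ⟨M, rfl⟩ := PH_surj hΓ hR o hl
  obtain ⟨s, rfl⟩ := hΓ.exists_hT ht
  refine ⟨M * fun j => dg (if j ∈ J then s j else 1), fun j => if j ∈ J then 1 else s j,
    fun j a => if_pos a, ?_⟩
  rw [map_mul, PH_dg hΓ hR o fun m a => if_neg a, mul_assoc, ← map_mul]
  congr 2
  funext j
  by_cases a : j ∈ J <;> simp [a]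

/-- Equivariance. -/
theorem PH_map (ψ : G →* G) (π : Equiv.Perm (Fin R.r)) (β : Fin R.r → S K →* S K)
    (hπ : ∀ j, π j ∈ J ↔ j ∈ J) (h : ∀ j ∈ J, ∀ M, ψ (phi hΓ hR j M) = phi hΓ hR (π j) (β (π j) M))
    (M : Fin R.r → S K) : ψ (PH hΓ hR o M) = PH hΓ hR o fun j => β j (M (π.symm j)) := by
  let ρ : (Fin R.r → S K) →* Fin R.r → S K :=
    Pi.monoidHom fun j => (β j).comp (Pi.evalMonoidHom _ (π.symm j))
  have : ψ.comp (PH hΓ hR o) = (PH hΓ hR o).comp ρ := MonoidHom.pi_ext fun j x => by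
    have e : ρ (Pi.mulSingle j x) = Pi.mulSingle (π j) (β (π j) x) := funext fun i => by
      obtain ⟨i, rfl⟩ := π.surjective i
      show β (π i) (Pi.mulSingle (M := fun _ => S K) j x (π.symm (π i))) = _
      by_cases e : i = j <;> simp [e]
    rw [MonoidHom.comp_apply, MonoidHom.comp_apply, e]
    by_cases a : j ∈ J
    · rw [PH_in hΓ hR o a, PH_in hΓ hR o ((hπ j).2 a), h j a]
    · rw [PH_out hΓ hR o a, PH_out hΓ hR o (mt (hπ j).1 a), map_one]
  exact DFunLike.congr_fun this M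

end Vale.Agent.P011UGM1
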