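import Vale.Agent.P011UK.S2
import Mathlib.LinearAlgebra.Matrix.SpecialLinearGroup
import Mathlib.Algebra.Group.Graph

/-!
The homomorphism from `SL₂` which belongs to a rank one datum.
-/

set_option autoImplicit false
set_option linter.all false

namespace Vale.Agent.P011UGM1

open Matrix Vale.Agent.P011UK

/-- The group `SL₂`. -/
abbrev S (K : Type) [Field K] : Type := SpecialLinearGroup (Fin 2) K

variable {K G G' : Type} [Field K] [Group G] [Group G']

/-- A matrix of determinant one. -/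
def mk (a b c d : K) (h : a * d - b * c = 1) : S K := ⟨!![a, b; c, d], by rw [det_fin_two_of, h]⟩

theorem S.ext' {M N : S K} (h1 : M.1 0 0 = N.1 0 0) (h2 : M.1 0 1 = N.1 0 1)
    (h3 : M.1 1 0 = N.1 1 0) (h4 : M.1 1 1 = N.1 1 1) : M = N :=
  Subtype.ext (Matrix.ext fun i j => by fin_cases i <;> fin_cases j <;> assumption)

theorem S.det (M : S K) : M.1 0 0 * M.1 1 1 - M.1 0 1 * M.1 1 0 = 1 :=
  (det_fin_two _).symm.trans M.2

theorem S.mul (M N : S K) (i j : Fin 2) : (M * N).1 i j = M.1 i 0 * N.1 0 j + M.1 i 1 * N.1 1 j := by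
  rw [SpecialLinearGroup.coe_mul, mul_apply, Fin.sum_univ_two]

@[simp] theorem mk00 (a b c d : K) (h) : (mk a b c d h).1 0 0 = a := rfl
@[simp] theorem mk01 (a b c d : K) (h) : (mk a b c d h).1 0 1 = b := rfl
@[simp] theorem mk10 (a b c d : K) (h) : (mk a b c d h).1 1 0 = c := rfl
@[simp] theorem mk11 (a b c d : K) (h) : (mk a b c d h).1 1 1 = d := rfl

/-- Upper triangular unipotent matrices. -/
def eu (u : K) : S K := mk 1 u 0 1 (by ring)

/-- Lower triangular unipotent matrices. -/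
def el (u : K) : S K := mk 1 0 u 1 (by ring)

/-- Diagonal matrices. -/
def dg : Kˣ →* S K where
  toFun t := mk (t : K) 0 0 (t⁻¹ : Kˣ) (by simp)
  map_one' := S.ext' (by simp) (by simp) (by simp) (by simp)
  map_mul' a b := S.ext' (by simp [S.mul]) (by simp [S.mul]) (by simp [S.mul])
    (by simp [S.mul, mul_comm])

theorem dg_eq (t : Kˣ) : dg t = mk (t : K) 0 0 (t⁻¹ : Kˣ) (by simp) := rfl

/-- The Weyl element. -/
def ww : S K := mk 0 1 (-1) 0 (by ring)

theorem s2S : S2 (eu (K := K)) el dg ww := by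
  refine ⟨fun a b => ?_, fun t => ?_, fun t u => mul_inv_eq_iff_eq_mul.2 ?_,
    fun t => mul_inv_eq_iff_eq_mul.2 ?_, fun u => mul_inv_eq_iff_eq_mul.2 ?_,
    fun u => mul_inv_eq_iff_eq_mul.2 ?_, fun a b h => congrArg (fun M : S K => M.1 1 0) h⟩ <;>
  refine S.ext' ?_ ?_ ?_ ?_ <;> simp [S.mul, eu, el, ww, dg_eq, add_comm, pow_two, mul_right_comm _ _ (_ : K)⁻¹]

variable {p m : K → G} {h : Kˣ →* G} {n : G} {p' m' : K → G'} {h' : Kˣ →* G'} {n' : G'}

theorem s2_prod (s : S2 p m h n) (s' : S2 p' m' h' n') :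
    S2 (fun u => (p u, p' u)) (fun u => (m u, m' u)) (h.prod h') (n, n') :=
  ⟨fun a b => Prod.ext (s.pa a b) (s'.pa a b), fun t => Prod.ext (s.sl t) (s'.sl t),
    fun t u => Prod.ext (s.hp t u) (s'.hp t u), fun t => Prod.ext (s.nh t) (s'.nh t),
    fun u => Prod.ext (s.np u) (s'.np u), fun u => Prod.ext (s.nm u) (s'.nm u),
    fun _ _ e => s.inj (congrArg Prod.fst e)⟩

theorem n_eq (s : S2 p m h n) : n = p 1 * m (-1) * p 1 := by simpa using (s.sl 1).symm

theorem nn (s : S2 p m h n) : n * n = h (-1) := by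
  have e := s.sl (-1)
  have e1 : h (-1) * h (-1) = 1 := by rw [← map_mul]; simp
  simp only [Units.val_neg, Units.val_one, inv_neg, inv_one, neg_neg, s.pn] at e
  refine mul_left_cancel (a := h (-1)) ?_
  rw [e1, ← mul_assoc, ← e, n_eq s, s.mn]
  group

/-- The Bruhat decomposition. -/
theorem bru (s : S2 p m h n) {g : G} (hg : g ∈ Subgroup.closure (Set.range p ∪ Set.range m)) :
    (∃ u t, g = p u * h t) ∨ ∃ u t v, g = p u * h t * n * p v := by
  let C : G → Prop := fun g => (∃ u t, g = p u * h t) ∨ ∃ u t v, g = p u * h t * n * p v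
  have c1 : ∀ a g, C g → C (g * p a) := by
    rintro a _ (⟨u, t, rfl⟩ | ⟨u, t, v, rfl⟩)
    · exact .inl ⟨u + t ^ 2 * a, t, by rw [s.pa, ← s.hp]; group⟩
    · exact .inr ⟨u, t, v + a, by rw [s.pa, mul_assoc]⟩
  have c2 : ∀ a g, C g → C (g * h a) := by
    rintro a _ (⟨u, t, rfl⟩ | ⟨u, t, v, rfl⟩)
    · exact .inl ⟨u, t * a, by rw [map_mul, mul_assoc]⟩
    · exact .inr ⟨u, t * a⁻¹, _, by
        rw [mul_assoc _ (p v), s.ph a v, ← mul_assoc, mul_assoc _ n, s.nh', map_mul, ← mul_assoc,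
          mul_assoc (p u) (h t)]⟩
  have c3 : ∀ g, C g → C (g * n) := by
    rintro _ (⟨u, t, rfl⟩ | ⟨u, t, v, rfl⟩)
    · exact .inr ⟨u, t, 0, by rw [s.p0, mul_one]⟩
    have e : p u * h t * n * p v * n = p u * h t * m (-v) * h (-1) := by
      rw [← s.np, ← nn s]
      group
    rw [e]
    refine c2 _ _ ?_
    by_cases v0 : v = 0
    · exact .inl ⟨u, t, by rw [v0, neg_zero, s.m0, mul_one]⟩
    lift v to Kˣ using Ne.isUnit v0
    refine .inr ⟨u + t ^ 2 * ((-v)⁻¹ : Kˣ), t * -(-v)⁻¹, ((-v)⁻¹ : Kˣ), ?_⟩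
    rw [← Units.val_neg, s.m_eq, s.pa, ← s.hp, map_mul]
    group
  have c4 : ∀ a g, C g → C (g * m a) := fun a g hg => by
    have := c3 _ (c2 (-1) _ (c1 (-a) _ (c3 _ hg)))
    have e := s.np (-a)
    rw [neg_neg] at e
    rw [← e, show n⁻¹ = h (-1) * n from inv_eq_of_mul_eq_one_left (by
      rw [mul_assoc, nn s, ← map_mul]; simp)]
    simpa only [mul_assoc] using this
  induction hg using Subgroup.closure_induction_right with
  | one => exact .inl ⟨0, 1, by simp [s.p0]⟩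
  | mul_right x _ y hy e =>
    obtain ⟨a, rfl⟩ | ⟨a, rfl⟩ := hy
    exacts [c1 a x e, c4 a x e]
  | mul_inv_cancel x _ y hy e =>
    obtain ⟨a, rfl⟩ | ⟨a, rfl⟩ := hy
    · exact s.pn a ▸ c1 _ x e
    · exact s.mn a ▸ c4 _ x e

theorem gen_aux (M : S K) (c : M.1 1 0 ≠ 0) :
    M = eu ((M.1 0 0 - 1) / M.1 1 0) * el (M.1 1 0) * eu ((M.1 1 1 - 1) / M.1 1 0) := by
  have := M.det
  refine S.ext' ?_ ?_ ?_ ?_ <;> simp only [S.mul, eu, el, mk00, mk01, mk10, mk11] <;> field_simp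
  · ring
  · linear_combination -this
  · ring
  · ring

theorem gen {H : Subgroup (S K)} (h1 : ∀ u, eu u ∈ H) (h2 : ∀ u, el u ∈ H) (M : S K) : M ∈ H := by
  have k : ∀ M : S K, M.1 1 0 ≠ 0 → M ∈ H := fun M c =>
    gen_aux M c ▸ mul_mem (mul_mem (h1 _) (h2 _)) (h1 _)
  by_cases c : M.1 1 0 = 0
  · refine (H.mul_mem_cancel_right (h2 1)).1 (k _ fun e => ?_)
    have := M.det
    simp only [S.mul, el, mk00, mk10, c, mul_one, zero_add] at e
    simp [c, e] at this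
  · exact k M c

theorem hom_ext {f g : S K →* G} (h1 : ∀ u, f (eu u) = g (eu u)) (h2 : ∀ u, f (el u) = g (el u)) :
    f = g := MonoidHom.ext (gen (H := f.eqLocus g) h1 h2)

theorem bruS (M : S K) : (∃ u t, M = eu u * dg t) ∨ ∃ u t v, M = eu u * dg t * ww * eu v :=
  bru s2S (gen (fun u => Subgroup.subset_closure (.inl ⟨u, rfl⟩))
    (fun u => Subgroup.subset_closure (.inr ⟨u, rfl⟩)) M)

theorem ex_phi (s : S2 p m h n) :
    ∃ φ : S K →* G, (∀ u, φ (eu u) = p u) ∧ ∀ u, φ (el u) = m u := by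
  let H := Subgroup.closure
    (Set.range (fun u => (eu u, p u)) ∪ Set.range fun u => (el u, m u) : Set (S K × G))
  have a : ∀ u, (eu u, p u) ∈ H := fun u => Subgroup.subset_closure (.inl ⟨u, rfl⟩)
  have b : ∀ u, (el u, m u) ∈ H := fun u => Subgroup.subset_closure (.inr ⟨u, rfl⟩)
  have c : ∀ x : H, x.1.1 = 1 → x = 1 := fun x hx => Subtype.ext (by
    obtain ⟨u, t, e⟩ | ⟨u, t, v, e⟩ := bru (s2_prod s2S s) x.2
    · have e1 : eu u * dg t = 1 := (congrArg Prod.fst e).symm.trans hx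
      have e2 := congrArg (fun M : S K => M.1 0 0) e1
      have e3 := congrArg (fun M : S K => M.1 0 1) e1
      simp [S.mul, eu, dg_eq] at e2 e3
      rw [e, e2, e3, map_one, mul_one, s.p0, s2S.p0]
      rfl
    · have e1 : eu u * dg t * ww * eu v = 1 := (congrArg Prod.fst e).symm.trans hx
      have e2 := congrArg (fun M : S K => M.1 1 0) e1
      simp [S.mul, eu, dg_eq, ww] at e2)
  obtain ⟨φ, e⟩ := H.exists_eq_graph ⟨(injective_iff_map_eq_one
    ((MonoidHom.fst _ _).comp H.subtype)).2 c, fun M =>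
      let ⟨x, h1, h2⟩ := gen (H := H.map (MonoidHom.fst _ _)) (fun u => ⟨_, a u, rfl⟩)
        (fun u => ⟨_, b u, rfl⟩) M
      ⟨⟨x, h1⟩, h2⟩⟩
  rw [e] at a b
  exact ⟨φ, a, b⟩

theorem phi_h (s : S2 p m h n) {φ : S K →* G} (h1 : ∀ u, φ (eu u) = p u)
    (h2 : ∀ u, φ (el u) = m u) (t : Kˣ) : φ (dg t) = h t := by
  rw [s.h_eq, s2S.h_eq]
  simp only [map_mul, h1, h2]

theorem phi_n (s : S2 p m h n) {φ : S K →* G} (h1 : ∀ u, φ (eu u) = p u)
    (h2 : ∀ u, φ (el u) = m u) : φ ww = n := by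
  rw [n_eq s, n_eq s2S]
  simp only [map_mul, h1, h2]

end Vale.Agent.P011UGM1
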